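import Vale.Agent.P057.Comb.Step
import Vale.Agent.P057.Tower

/-!
# P057: a smaller constant in the lower bound for sets without long progressions
-/

namespace Vale.Agent.Results.P057.RankinConstant

open Filter Vale.P057

/-- For `n ≥ 3` and `k ≥ 3·2^(n-2)+2`, with `c` the stated constant, strictly below
`n·2^((n-1)/2)` and at most `5.56` for `n = 3`, sets in `range N` without `k`-term progressions
have at least `N·2^(-(c+ε)(log₂ N)^(1/n))` elements for all large `N`. -/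
theorem result : ∀ n k : ℕ, 3 ≤ n → 3 * 2 ^ (n - 2) + 2 ≤ k → ∃ c : ℝ,
    c = (n : ℝ) * (2 : ℝ) ^ (((n : ℝ) - 1) / 2) *
      (Real.logb 2 (((2 ^ (n - 2) + 1).choose (2 ^ (n - 3)) : ℕ) : ℝ) / 2 ^ (n - 2)) ^ ((n : ℝ)⁻¹) ∧
    c < (n : ℝ) * (2 : ℝ) ^ (((n : ℝ) - 1) / 2) ∧ (n = 3 → c ≤ 5.56) ∧
    ∀ ε : ℝ, 0 < ε → ∀ᶠ N : ℕ in atTop, ∃ A : Finset ℕ, A ⊆ Finset.range N ∧
      (∀ a d : ℕ, 0 < d → ¬ ∀ j < k, a + j * d ∈ A) ∧
      (N : ℝ) * (2 : ℝ) ^ (-(c + ε) * Real.logb 2 N ^ ((n : ℝ)⁻¹)) ≤ A.card := fun n k hn hk =>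
  ⟨newConst n, rfl, newConst_lt n hn, fun h => h ▸ newConst_three,
    large_progression_free hn hk (fun D => stepProp_outer D k) fun D => stepProp_last D k⟩

end Vale.Agent.Results.P057.RankinConstant
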